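import Vale.Agent.Lib.P308T.Formula
import Vale.Agent.Lib.P308T.Decay
import Vale.Agent.Lib.P335_helper12.Bridge
import Vale.Agent.Lib.P335_helper3.GMain

/-!
P308 (approximate counting of perfect matchings in general graphs).
Tutte gadget graphs `T d` of the complete graph, for ALL degree sequences `d`:
`Z(T d) = ∏ (n-1-d v)! * ∏_s p'_s / p_s`, a product of fewer than `n^2` ratios of probabilities, each at
least `1/(n^2+1)`, of edge events under uniform graphs with given degrees; and the switch chain samples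
these uniform laws within total variation `2^-(l+1)` in `256 l n^6` steps.
-/

namespace Vale.Agent.Results.P308.AATutteFormula

open P335h14 P308T

theorem result : ∀ (n : ℕ), 4 ≤ n →
    (∀ (d : Fin n → ℕ) (l : ℕ), 1 ≤ l → ∀ t : ℕ, l * (256 * n ^ 6) ≤ t →
      ∀ G : Omega d, tvDist d t G ≤ (1 / 2) ^ (l + 1)) ∧
    (∀ d : Fin n → ℕ, Nonempty (Omega d) →
      Nat.card {M : (T d).Subgraph // M.IsPerfectMatching} =
        Nat.card (Omega d) * ∏ v, (n - 1 - d v).factorial) ∧
    (∀ d : Fin n → ℕ, Nonempty (Omega d) →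
      ∃ (k : ℕ) (D : ℕ → Fin n → ℕ) (U V : ℕ → Fin n),
        2 * k = ∑ x, d x ∧ D 0 = d ∧ D k = 0 ∧
        (∀ s < k, U s ≠ V s ∧ 1 ≤ D s (U s) ∧ 1 ≤ D s (V s) ∧
          D (s + 1) = lower (D s) (U s) (V s) ∧
          1 / ((n : ℝ) ^ 2 + 1) ≤ prAdj (D s) (U s) (V s) ∧
          1 / ((n : ℝ) ^ 2 + 1) ≤ prNon (D (s + 1)) (U s) (V s)) ∧
        (Nat.card {M : (T d).Subgraph // M.IsPerfectMatching} : ℝ) =
          (∏ v, ((n - 1 - d v).factorial : ℝ)) *
            ∏ s ∈ Finset.range k, prNon (D (s + 1)) (U s) (V s) / prAdj (D s) (U s) (V s)) := by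
  intro n hn
  refine ⟨?_, ?_, ?_⟩
  · intro d
    refine tv_decay hn d (256 * n ^ 6) ?_
    intro t ht G
    refine mixing_of_g_poincare hn (fun f => P335G.g_poincare f) d t ?_ G
    exact_mod_cast ht
  · intro d hne
    obtain ⟨G⟩ := hne
    exact card_pm_T d (fun v => deg_le G v)
  · intro d hne
    exact Z_formula (by omega) d hne

end Vale.Agent.Results.P308.AATutteFormula
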