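import Vale.Agent.Lib.P308T.Chain
import Vale.Agent.Lib.P308T.Tutte
import Vale.Agent.Lib.P335_helper12.Bridge
import Vale.Agent.Lib.P335_helper3.GMain
import Vale.Agent.Lib.P308_helper27.Bridge

/-!
P308 (approximate counting of perfect matchings in general graphs): two new graph classes.
(A) Graphs of bounded independence number: near-perfect matchings are at most
`(3k+1) n^(3k+1)` times the perfect matchings.
(B) Tutte gadget graphs `T d` of the complete graph, for ALL degree sequences `d`.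
-/

namespace Vale.Agent.Results.P308.AAllResults

open P335h14 P308T Vale.Agent.Lib.P308_helper27

theorem result :
    (∀ (V : Type) [Fintype V] (G : SimpleGraph V) (k : ℕ), G.indepNum ≤ k →
      (∃ M : G.Subgraph, M.IsPerfectMatching) →
      Nat.card {M : G.Subgraph // M.IsMatching ∧ {v : V | v ∉ M.verts}.ncard = 2} ≤
        (3 * k + 1) * (Fintype.card V) ^ (3 * k + 1) *
          Nat.card {M : G.Subgraph // M.IsPerfectMatching}) ∧
    (∀ (n : ℕ), 4 ≤ n →
    (∀ d : Fin n → ℕ, ∀ t : ℕ, 256 * n ^ 6 ≤ t → ∀ G : Omega d, tvDist d t G ≤ 1 / 4) ∧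
    (∀ d : Fin n → ℕ, Nonempty (Omega d) →
      Nat.card {M : (T d).Subgraph // M.IsPerfectMatching} =
        Nat.card (Omega d) * ∏ v, (n - 1 - d v).factorial) ∧
    Nat.card (Omega (0 : Fin n → ℕ)) = 1 ∧
    (∀ d : Fin n → ℕ, Nonempty (Omega d) →
      ∃ (k : ℕ) (D : ℕ → Fin n → ℕ), 2 * k = ∑ x, d x ∧ D 0 = d ∧ D k = 0 ∧
        ∀ s < k, ∃ u v : Fin n, u ≠ v ∧ 1 ≤ D s u ∧ 1 ≤ D s v ∧ D (s + 1) = lower (D s) u v ∧
          0 < Nat.card {G : Omega (D s) // G.1.Adj u v} ∧
          Nat.card {G : Omega (D s) // G.1.Adj u v} =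
            Nat.card {G : Omega (D (s + 1)) // ¬ G.1.Adj u v} ∧
          Nat.card (Omega (D s)) ≤ (n ^ 2 + 1) * Nat.card {G : Omega (D s) // G.1.Adj u v} ∧
          Nat.card (Omega (D (s + 1))) ≤
            (n ^ 2 + 1) * Nat.card {G : Omega (D (s + 1)) // ¬ G.1.Adj u v})) := by
  refine ⟨fun V _ G k hk hpm => ratio_subgraph G k hk hpm, ?_⟩
  intro n hn
  refine ⟨?_, ?_, card_omega_zero, ?_⟩
  · intro d t ht G
    refine mixing_of_g_poincare hn (fun f => P335G.g_poincare f) d t ?_ G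
    exact_mod_cast ht
  · intro d hne
    obtain ⟨G⟩ := hne
    exact card_pm_T d (fun v => deg_le G v)
  · intro d hne
    exact exists_chain d hne

end Vale.Agent.Results.P308.AAllResults
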