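import Vale.Agent.Lib.P308T.Chain
import Vale.Agent.Lib.P308T.Tutte
import Vale.Agent.Lib.P335_helper12.Bridge
import Vale.Agent.Lib.P335_helper3.GMain

/-!
P308 (approximate counting of perfect matchings in general graphs).
The class of Tutte gadget graphs `T d` of the complete graph, for ALL degree sequences `d`:
`Z(T d) = |Omega d| * ∏ (n-1-d v)!`, the switch chain on `Omega d` mixes in `256 n^6` steps, and
`|Omega d|` telescopes along `|E|` steps with all sampled probabilities at least `1/(n^2+1)`.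
-/

namespace Vale.Agent.Results.P308.ATutteGadgets

open P335h14 P308T

theorem result : ∀ (n : ℕ), 4 ≤ n →
    (∀ d : Fin n → ℕ, ∀ t : ℕ, 256 * n ^ 6 ≤ t → ∀ G : Omega d, tvDist d t G ≤ 1 / 4) ∧
    (∀ d : Fin n → ℕ, Nonempty (Omega d) →
      Nat.card {M : (T d).Subgraph // M.IsPerfectMatching} =
        Nat.card (Omega d) * ∏ v, (n - 1 - d v).factorial) ∧
    Nat.card (Omega (0 : Fin n → ℕ)) = 1 ∧
    (∀ d : Fin n → ℕ, Nonempty (Omega d) →
      ∃ (k : ℕ) (D : ℕ → Fin n → ℕ), 2 * k = ∑ x, d x ∧ D 0 = d ∧ D k = 0 ∧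
        ∀ s < k, ∃ u v : Fin n, u ≠ v ∧ 1 ≤ D s u ∧ 1 ≤ D s v ∧ D (s + 1) = lower (D s) u v ∧
          0 < Nat.card {G : Omega (D s) // G.1.Adj u v} ∧
          Nat.card {G : Omega (D s) // G.1.Adj u v} =
            Nat.card {G : Omega (D (s + 1)) // ¬ G.1.Adj u v} ∧
          Nat.card (Omega (D s)) ≤ (n ^ 2 + 1) * Nat.card {G : Omega (D s) // G.1.Adj u v} ∧
          Nat.card (Omega (D (s + 1))) ≤
            (n ^ 2 + 1) * Nat.card {G : Omega (D (s + 1)) // ¬ G.1.Adj u v}) := by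
  intro n hn
  refine ⟨?_, ?_, card_omega_zero, ?_⟩
  · intro d t ht G
    refine mixing_of_g_poincare hn (fun f => P335G.g_poincare f) d t ?_ G
    exact_mod_cast ht
  · intro d hne
    obtain ⟨G⟩ := hne
    exact card_pm_T d (fun v => deg_le G v)
  · intro d hne
    exact exists_chain d hne

end Vale.Agent.Results.P308.ATutteGadgets
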