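import Mathlib
import Vale.Agent.Lib.P308_helper27.Bridge

namespace Vale.Agent.Results.P308.BoundedAlphaRatio

open Vale.Agent.Lib.P308_helper27

/-- Let `G` be a finite simple graph with independence number at most `k` that has a perfect
matching.  Then the number of near-perfect matchings (matchings leaving exactly two vertices
uncovered) is at most `(3k+1) * n^(3k+1)` times the number of perfect matchings. -/
theorem result {V : Type*} [Fintype V] (G : SimpleGraph V) (k : ℕ) (hk : G.indepNum ≤ k)
    (hpm : ∃ M : G.Subgraph, M.IsPerfectMatching) :
    Nat.card {M : G.Subgraph // M.IsMatching ∧ {v : V | v ∉ M.verts}.ncard = 2} ≤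
      (3 * k + 1) * (Fintype.card V) ^ (3 * k + 1) *
        Nat.card {M : G.Subgraph // M.IsPerfectMatching} :=
  ratio_subgraph G k hk hpm

end Vale.Agent.Results.P308.BoundedAlphaRatio
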